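import Vale.Agent.P355.H129V.Sos
import Vale.Agent.P355.H693.InjBase

/-! Chunks of rows of the V side glued together. -/

namespace Vale.Agent.P355.H625V

open Vale.Agent.P355 Vale.Agent.P355.H129V
open Vale.Agent.P355.H693.Inj (Mt)
open Vale.Agent.P355.H387 (Cls CT evL)
open Vale.Agent.P355.H693W (SqF)
open Vale.Agent.P355.H129 (psdCk)

variable {F : Bool → Mt → ℝ}

/-- the rows `T` starting with row `i` have the value of the list `out`. -/
def Step (F : Bool → Mt → ℝ) (ct : CT) (w oU : ℕ) (fl : List (Fg × Fg)) (T : List RT) (i : ℕ)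
    (out : List (ℕ × ℕ)) : Prop :=
  Rvs F w oU fl T (fl.drop i) i = evL F ct out

theorem Step.mk {ct : CT} {w oU : ℕ} {fl : List (Fg × Fg)} {T : List RT} {i : ℕ}
    {out : List (ℕ × ℕ)} (h : Rvs F w oU fl T (fl.drop i) i = evL F ct out) :
    Step F ct w oU fl T i out := h

theorem Step.app {ct : CT} {w oU : ℕ} {fl : List (Fg × Fg)} {T T' : List RT} {i j : ℕ}
    {out out' : List (ℕ × ℕ)} (h : Step F ct w oU fl T i out) (hj : i + T.length = j)
    (h' : Step F ct w oU fl T' j out') : Step F ct w oU fl (T ++ T') i (out ++ out') := by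
  unfold Step at h h' ⊢
  rw [Rvs_append w oU fl T T' i j hj, h, h', H387.evL_append]

/-- **the glued list has a nonnegative value.** -/
theorem Step.nonneg {ct : CT} {w oU n : ℕ} {fl : List (Fg × Fg)} {T : List RT}
    {out : List (ℕ × ℕ)} (h : Step F ct w oU fl T 0 out) (hC : Cls F) (hS : SqF F)
    {bu0 bl0 v0 c0 o0 δ0 bu1 bl1 v1 c1 o1 δ1 bu2 bl2 v2 c2 o2 δ2 bu3 bl3 v3 c3 o3 δ3 : ℕ}
    {Cs0 Cs1 Cs2 Cs3 : List ℕ}
    (k0 : psdCk w bu0 bl0 v0 n c0 o0 oU δ0 (U0s T) Cs0 = true)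
    (k1 : psdCk w bu1 bl1 v1 n c1 o1 oU δ1 (U1s T) Cs1 = true)
    (k2 : psdCk w bu2 bl2 v2 n c2 o2 oU δ2 (U2s T) Cs2 = true)
    (k3 : psdCk w bu3 bl3 v3 n c3 o3 oU δ3 (U3s T) Cs3 = true) :
    0 ≤ evL F ct out := by
  have h0 : Rvs F w oU fl T fl 0 = evL F ct out := h
  rw [← h0]
  exact Rvs_nonneg hC hS k0 k1 k2 k3

end Vale.Agent.P355.H625V
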